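import Vale.Agent.P235.K5.S.Defs

set_option linter.all false

/-!
P235, THEOREM S (helper134): the invariant `E t + 4 FA ≥ c₀ d` along the tree of the fine bags, and
the capture of the pairs of one bag by the two laws together.
-/

set_option autoImplicit false

namespace Vale.Agent.P235.K5.S.H134

open SimpleGraph Vale.Agent.P235 Vale.Agent.P235.H134 Vale.Agent.P235.H56 Vale.Agent.P235.K5

theorem adh_zero {V : Type} {B : ℕ → Set V} {v : V} (h : v ∈ Adh B 0) : False := by
  obtain ⟨_, s, hs, _⟩ := h
  omega

variable {V : Type} {d : V → V → ℝ} {m : ℕ} {B : ℕ → Set V} {par : ℕ → ℕ}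
  {E : ℕ → V → V → ℝ} {FA FN : V → V → ℝ}

/-- the combinatorial data of the fine bags: `J t` = the bags of bounded treewidth, `R t` = the
adhesion of the coarse bag of `t` -/
structure Fine {V : Type} (m : ℕ) (B : ℕ → Set V) (par : ℕ → ℕ) (J : ℕ → Prop) (R : ℕ → Set V) :
    Prop where
  lt : ∀ t, 0 < t → t < m → par t < t
  adh : ∀ t, 0 < t → t < m → Adh B t ⊆ B (par t)
  sub : ∀ t < m, J t → R t ⊆ Adh B t
  par : ∀ t < m, 0 < t → J t → Adh B t ⊆ R t ∨ (J (par t) ∧ R (par t) = R t)
  one : ∀ t < m, J t → ∀ x ∈ B t, ∀ y ∈ B t, x ∈ Adh B t ∨ y ∈ Adh B t ∨ x = y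

variable {J : ℕ → Prop} {R : ℕ → Set V}

/-- the contracted metric on the bags of `J` is at least the metric of the quotient by `R` -/
theorem quot (hf : Fine m B par J R) (hE : Con d m B par E) (hd : IsMet d) :
    ∀ t < m, J t → ∀ x ∈ B t, ∀ a ∈ Adh B t,
      d x a ≤ E t x a ∨ ∃ r ∈ R t, ∃ r' ∈ R t, d x r + d r' a ≤ E t x a := by
  intro t
  induction t using Nat.strong_induction_on with
  | _ t ih =>
    intro ht hJ x hx a ha
    rcases Nat.eq_zero_or_pos t with h0 | h0
    · subst h0
      exact (adh_zero ha).elim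
    obtain ⟨s, hs, he⟩ := hE.thru t ht h0 x hx a ha
    have hpt := hf.lt t h0 ht
    have hpm : par t < m := hpt.trans ht
    rcases hf.par t ht h0 hJ with hsub | ⟨hJ', hR'⟩
    · right
      refine ⟨s, hsub hs, a, hsub ha, ?_⟩
      have h1 := hE.nonneg t ht s a
      rw [he, hd.self]
      linarith
    · have hsp := hf.adh t h0 ht hs
      have hap := hf.adh t h0 ht ha
      have e1 := hE.adh t ht h0 s hs a ha
      rcases hf.one (par t) hpm hJ' s hsp a hap with h | h | h
      · have e2 := hE.symm (par t) hpm s a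
        rcases ih (par t) hpt hpm hJ' a hap s h with h2 | ⟨r, hr, r', hr', h2⟩
        · left
          have h3 := hd.tri x s a
          have h4 := hd.symm s a
          rw [he, e1, e2]
          linarith
        · right
          refine ⟨r', hR' ▸ hr', r, hR' ▸ hr, ?_⟩
          have h3 := hd.tri x s r'
          have h4 := hd.symm s r'
          have h5 := hd.symm r a
          rw [he, e1, e2]
          linarith
      · rcases ih (par t) hpt hpm hJ' s hsp a h with h2 | ⟨r, hr, r', hr', h2⟩
        · left
          have h3 := hd.tri x s a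
          rw [he, e1]
          linarith
        · right
          refine ⟨r, hR' ▸ hr, r', hR' ▸ hr', ?_⟩
          have h3 := hd.tri x s r
          rw [he, e1]
          linarith
      · left
        subst h
        have h3 := hE.nonneg t ht s s
        rw [he]
        linarith

/-- captured near the adhesion -/
theorem near_of (hf : Fine m B par J R) (hE : Con d m B par E) (hd : IsMet d) {c : ℝ}
    (hc : 0 ≤ c) (hc1 : c ≤ 1) {t : ℕ} (ht : t < m)
    (hI : 0 < t → ∀ x ∈ B (par t), ∀ y ∈ B (par t), c * d x y ≤ E (par t) x y + 4 * FA x y)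
    {S : Set V} (hS : S ⊆ Adh B t) {x y : V} (hn : Near d FA S x y) :
    c * d x y ≤ E t x y + 4 * FA x y := by
  obtain ⟨i, hi, j, hj, h⟩ := hn
  have hi' := hS hi
  have hj' := hS hj
  have h0 : 0 < t := by
    rcases Nat.eq_zero_or_pos t with h0 | h0
    · subst h0
      exact (adh_zero hi').elim
    · exact h0
  have h1 := hI h0 i (hf.adh t h0 ht hi') j (hf.adh t h0 ht hj')
  rw [← hE.adh t ht h0 i hi' j hj'] at h1
  have h2 := hE.tri t ht i x j
  have h3 := hE.tri t ht x y j
  have h4 := hE.le t ht i x
  have h5 := hE.le t ht y j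
  rw [hd.symm i x] at h4
  rw [hd.symm y j] at h5
  have h6 := hd.tri x i y
  have h7 := hd.tri i j y
  have h8 := hd.nonneg x i
  have h9 := hd.nonneg j y
  have h10 : c * d x y ≤ c * (d x i + d i j + d j y) :=
    mul_le_mul_of_nonneg_left (by linarith) hc
  have h11 : c * d x i ≤ 1 * d x i := mul_le_mul_of_nonneg_right hc1 h8
  have h12 : c * d j y ≤ 1 * d j y := mul_le_mul_of_nonneg_right hc1 h9
  have h13 : c * (d x i + d i j + d j y) = c * d x i + c * d i j + c * d j y := by ring
  linarith

/-- **The invariant.** -/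
theorem inv (hf : Fine m B par J R) (hE : Con d m B par E) (hd : IsMet d)
    (hF : IsL1 FA) (hFd : ∀ x y, FA x y ≤ d x y) {c : ℝ} (hc : 0 < c) (hc1 : c ≤ 1)
    (hPC : ∀ t < m, ¬ J t → ∀ x ∈ B t, ∀ y ∈ B t,
      c * d x y ≤ FA x y ∨ Near d FA (Adh B t) x y)
    (hJ : ∀ t < m, J t → ∀ x ∈ B t, ∀ y ∈ B t, Short d FA (R t) x y → Near d FA (R t) x y) :
    ∀ t < m, ∀ x ∈ B t, ∀ y ∈ B t, c / 768 * d x y ≤ E t x y + 4 * FA x y := by
  intro t
  induction t using Nat.strong_induction_on with
  | _ t ih =>
    intro ht
    have hc0 : 0 ≤ c / 768 := by positivity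
    have hcc : c / 768 ≤ 1 := by linarith
    have hcc' : c / 768 ≤ 1 / 768 := by linarith
    have hI : 0 < t → ∀ x ∈ B (par t), ∀ y ∈ B (par t),
        c / 768 * d x y ≤ E (par t) x y + 4 * FA x y := fun h0 =>
      ih (par t) (hf.lt t h0 ht) ((hf.lt t h0 ht).trans ht)
    by_cases hJt : J t
    · -- a bag of bounded treewidth
      have key : ∀ x ∈ B t, ∀ a ∈ Adh B t, c / 768 * d x a ≤ E t x a + 4 * FA x a := by
        intro x hx a ha
        have hdx := hd.nonneg x a
        have hF0 := hF.nonneg x a
        have hc2 : c / 768 * d x a ≤ 1 / 768 * d x a := mul_le_mul_of_nonneg_right hcc' hdx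
        have hE0 := hE.nonneg t ht x a
        rcases quot hf hE hd t ht hJt x hx a ha with h | ⟨r, hr, r', hr', h⟩
        · linarith
        · by_cases hs : 1 / 768 * d x a ≤ d x r + d r' a
          · linarith
          · push Not at hs
            by_cases hs2 : 2 / 768 * d x a ≤ FA r r'
            · have h1 := hF.tri r x r'
              have h2 := hF.tri x a r'
              have h3 := hFd r x
              have h4 := hFd a r'
              have h5 := hd.symm r x
              have h6 := hd.symm a r'
              linarith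
            · push Not at hs2
              have hsh : Short d FA (R t) x a := ⟨r, hr, r', hr', by linarith⟩
              exact near_of hf hE hd hc0 hcc ht hI (hf.sub t ht hJt)
                (hJ t ht hJt x hx a ha.1 hsh)
      intro x hx y hy
      rcases hf.one t ht hJt x hx y hy with h | h | h
      · have h1 := key y hy x h
        have h2 := hd.symm x y
        have h3 := hE.symm t ht x y
        have h4 := hF.symm x y
        rw [h2, h3, h4]
        exact h1
      · exact key x hx y h
      · subst h
        rw [hd.self, hF.self, hE.self t ht]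
        linarith
    · intro x hx y hy
      rcases hPC t ht hJt x hx y hy with h | h
      · have hdx := hd.nonneg x y
        have hE0 := hE.nonneg t ht x y
        have hF0 := hF.nonneg x y
        have h1 : c / 768 * d x y ≤ c * d x y :=
          mul_le_mul_of_nonneg_right (by linarith) hdx
        linarith
      · exact near_of hf hE hd hc0 hcc ht hI subset_rfl h

/-- **Capture of the pairs of one bag.** -/
theorem bag (hf : Fine m B par J R) (hE : Con d m B par E) (hd : IsMet d)
    (hF : IsL1 FA) (hFd : ∀ x y, FA x y ≤ d x y) {c : ℝ} (hc : 0 < c) (hc1 : c ≤ 1)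
    (hPC : ∀ t < m, ¬ J t → ∀ x ∈ B t, ∀ y ∈ B t,
      c * d x y ≤ FA x y ∨ Near d FA (Adh B t) x y)
    (hJ : ∀ t < m, J t → ∀ x ∈ B t, ∀ y ∈ B t, Short d FA (R t) x y → Near d FA (R t) x y)
    (hN : IsL1 FN) (hNd : ∀ t < m, ∀ x ∈ B t, ∀ y ∈ B t, FN x y ≤ d x y) {C3 : ℝ}
    (hC3 : 1 ≤ C3)
    (hcap : ∀ t < m, 0 < t → ∀ x ∈ B t, ∀ a ∈ Adh B t, E t x a ≤ C3 * FN x a) :
    ∀ t < m, ∀ x ∈ B t, ∀ y ∈ B t, c / 768 * d x y ≤ C3 * FN x y + 4 * C3 * FA x y := by
  intro t ht
  have hI := inv hf hE hd hF hFd hc hc1 hPC hJ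
  have hC0 : 0 < C3 := by linarith
  have hc0 : 0 ≤ c / 768 := by positivity
  have hcc : c / 768 ≤ 1 := by linarith
  have hFC : ∀ x y, FA x y ≤ C3 * FA x y := fun x y => by
    have := mul_le_mul_of_nonneg_right hC3 (hF.nonneg x y)
    linarith
  by_cases hJt : J t
  · have key : ∀ x ∈ B t, ∀ a ∈ Adh B t,
        c / 768 * d x a ≤ C3 * FN x a + 4 * C3 * FA x a := by
      intro x hx a ha
      have h0 : 0 < t := by
        rcases Nat.eq_zero_or_pos t with h0 | h0
        · subst h0
          exact (adh_zero ha).elim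
        · exact h0
      have h1 := hI t ht x hx a ha.1
      have h2 := hcap t ht h0 x hx a ha
      have h3 := hFC x a
      linarith
    intro x hx y hy
    rcases hf.one t ht hJt x hx y hy with h | h | h
    · have h1 := key y hy x h
      rw [hd.symm x y, hN.symm x y, hF.symm x y]
      exact h1
    · exact key x hx y h
    · subst h
      rw [hd.self, hF.self, hN.self]
      linarith
  · intro x hx y hy
    rcases hPC t ht hJt x hx y hy with h | ⟨i, hi, j, hj, h⟩
    · have hdx := hd.nonneg x y
      have hN0 := mul_nonneg hC0.le (hN.nonneg x y)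
      have h1 : c / 768 * d x y ≤ c * d x y := mul_le_mul_of_nonneg_right (by linarith) hdx
      have h2 := hFC x y
      have h3 := hF.nonneg x y
      have h4 := mul_nonneg hC0.le h3
      linarith
    · have h0 : 0 < t := by
        rcases Nat.eq_zero_or_pos t with h0 | h0
        · subst h0
          exact (adh_zero hi).elim
        · exact h0
      have h1 := hI t ht i hi.1 j hj.1
      have h2 := hcap t ht h0 i hi.1 j hj
      have h3 := hN.tri i x j
      have h4 := hN.tri x y j
      have h5 := hNd t ht i hi.1 x hx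
      have h6 := hNd t ht y hy j hj.1
      rw [hd.symm i x] at h5
      rw [hd.symm y j] at h6
      have h7 := hd.tri x i y
      have h8 := hd.tri i j y
      have h9 := hd.nonneg x i
      have h10 := hd.nonneg j y
      have h11 := hFC i j
      have h12 : c / 768 * d x y ≤ c / 768 * (d x i + d i j + d j y) :=
        mul_le_mul_of_nonneg_left (by linarith) hc0
      have h13 : c / 768 * d x i ≤ 1 * d x i := mul_le_mul_of_nonneg_right hcc h9
      have h14 : c / 768 * d j y ≤ 1 * d j y := mul_le_mul_of_nonneg_right hcc h10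
      have h15 : c / 768 * (d x i + d i j + d j y) =
        c / 768 * d x i + c / 768 * d i j + c / 768 * d j y := by ring
      have h16 : C3 * FN i j ≤ C3 * (d x i + FN x y + d j y) :=
        mul_le_mul_of_nonneg_left (by linarith) hC0.le
      have h17 : C3 * (FA i j + 1 / 2 * (d x i + d j y)) ≤ C3 * FA x y :=
        mul_le_mul_of_nonneg_left h hC0.le
      have h18 : 1 * (d x i + d j y) ≤ C3 * (d x i + d j y) :=
        mul_le_mul_of_nonneg_right hC3 (by linarith)
      have e1 : C3 * (d x i + FN x y + d j y) = C3 * FN x y + C3 * (d x i + d j y) := by ring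
      have e2 : C3 * (FA i j + 1 / 2 * (d x i + d j y)) =
        C3 * FA i j + 1 / 2 * (C3 * (d x i + d j y)) := by ring
      rw [e1] at h16
      rw [e2] at h17
      linarith

end Vale.Agent.P235.K5.S.H134
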